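/-
Row 168: statements of the main lemmas for the S0255 half (all `sorry` here; each moves to its own
file when proved; see BLUEPRINT.md).
-/
import Crest.Agent.Lib.SRF.Defs

set_option autoImplicit false

namespace Crest.Agent.Lib.SRF

open MeasureTheory Filter Topology Set

variable {E : Type*}

/-! ### Task L: the key finite lemma -/
theorem gibbsMean_lipschitz {c : Finset E → ℝ} {W : Finset E} (hc : GoodCoef c W)
    (hs : StableOn c W) {e : E} (he : e ∈ W) {h h' : E → ℝ} {ε : ℝ}
    (hε : ∀ a ∈ W, |h a - h' a| ≤ ε) :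
    |gibbsMean c W e h - gibbsMean c W e h'| ≤ ε / 2 := by
  sorry

/-! ### Task D: deterministic uniqueness -/
theorem TT_injOn {c : Finset E → Finset E → ℝ} {W : E → ℕ → Finset E} (hL : IsLip c W) :
    InjOn (TT c W) (Good c W) := by
  sorry

/-! ### Task M: measurability on the total space -/
section Meas
variable {Θ : Type*} [MeasurableSpace Θ] [Countable E] (F : Family Θ E)

theorem measurableSet_GoodHat
    (hc : ∀ W S, Measurable fun θ => F.c θ W S)
    (hW : ∀ e n W₀, MeasurableSet {θ | F.W θ e n = W₀})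
    (hg : MeasurableSet F.good₀) : MeasurableSet (GoodHat F) := by
  sorry

theorem measurable_THat
    (hc : ∀ W S, Measurable fun θ => F.c θ W S)
    (hW : ∀ e n W₀, MeasurableSet {θ | F.W θ e n = W₀}) : Measurable (THat F) := by
  sorry

theorem measurable_recov [Countable E] : Measurable (recov : (E × ℕ → Lab) → E → Bool) := by
  sorry

end Meas

/-! ### Task P: the probabilistic core -/
section Prob
variable [Countable E]

variable (ν : Measure (E → Bool)) [IsProbabilityMeasure ν] {W : E → ℕ → Finset E}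

/-- Lévy upward + Bayes. -/
theorem ae_good (hW : Exhausting W) (u : E → Lab) :
    ∀ᵐ ω ∂(PP ν), (u, Yobs ω.1 ω.2) ∈ Good (coef ν) W := by
  sorry

/-- The innovations are i.i.d. uniform. -/
theorem map_innov (hW : Exhausting W) (u : E → Lab) (hu : Function.Injective u) :
    (PP ν).map (fun ω => innov (coef ν) W u (Yobs ω.1 ω.2)) = lam (E × ℕ) := by
  sorry

/-- SLLN recovery. -/
theorem ae_recov : ∀ᵐ ω ∂(PP ν), recov (Yobs ω.1 ω.2) = ω.1 := by
  sorry

end Prob

/-! ### Task A: assembly -/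
section Assembly
variable {Θ : Type*} [MeasurableSpace Θ] [StandardBorelSpace Θ] [Countable E] (F : Family Θ E)

theorem THat_injOn (hL : ∀ θ ∈ F.good₀, IsLip (F.c θ) (F.W θ)) :
    InjOn (THat F) (GoodHat F) := by
  sorry

theorem measurable_Psi
    (hc : ∀ W S, Measurable fun θ => F.c θ W S)
    (hW : ∀ e n W₀, MeasurableSet {θ | F.W θ e n = W₀})
    (hg : MeasurableSet F.good₀)
    (hL : ∀ θ ∈ F.good₀, IsLip (F.c θ) (F.W θ)) : Measurable (Psi F) := by
  sorry

theorem Psi_THat (hL : ∀ θ ∈ F.good₀, IsLip (F.c θ) (F.W θ)) {p : Total Θ E}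
    (hp : p ∈ GoodHat F) : Psi F (THat F p) = recov p.2.2 := by
  sorry

theorem Psi_of_not_mem {p : Total Θ E} (hp : ∀ q ∈ GoodHat F, THat F q ≠ p) :
    Psi F p = fun _ => false := by
  sorry

theorem Psi_law
    (hc : ∀ W S, Measurable fun θ => F.c θ W S)
    (hW : ∀ e n W₀, MeasurableSet {θ | F.W θ e n = W₀})
    (hg : MeasurableSet F.good₀)
    (hL : ∀ θ ∈ F.good₀, IsLip (F.c θ) (F.W θ))
    {θ : Θ} (hθ : θ ∈ F.good₀) (ν : Measure (E → Bool)) [IsProbabilityMeasure ν]
    (hcν : F.c θ = coef ν) (hWx : Exhausting (F.W θ)) :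
    ((lam E).prod (lam (E × ℕ))).map (fun p => Psi F (θ, p)) = ν := by
  sorry

/-- Exact equivariance of `Psi` under a symmetry `(σ, A)`. -/
theorem Psi_equivariant (σ : E ≃ E) (A : Θ ≃ Θ)
    (hgood : ∀ θ, A θ ∈ F.good₀ ↔ θ ∈ F.good₀)
    (hLip : ∀ θ ∈ F.good₀, IsLip (F.c θ) (F.W θ))
    (hAc : ∀ θ ∈ F.good₀, ∀ W S, F.c (A θ) (W.map σ.toEmbedding) (S.map σ.toEmbedding) = F.c θ W S)
    (hAW : ∀ θ ∈ F.good₀, ∀ e n, F.W (A θ) (σ e) n = (F.W θ e n).map σ.toEmbedding)
    (θ : Θ) (u : E → Lab) (v : E × ℕ → Lab) :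
    Psi F (A θ, (u ∘ σ.symm, v ∘ Prod.map σ.symm id)) = Psi F (θ, (u, v)) ∘ σ.symm := by
  sorry

/-- Splitting one label into any standard Borel randomness. -/
theorem exists_split (X : Type*) [MeasurableSpace X] [StandardBorelSpace X] (μ : Measure X)
    [IsProbabilityMeasure μ] : ∃ s : Lab → X, Measurable s ∧ (volume : Measure Lab).map s = μ := by
  sorry

end Assembly

end Crest.Agent.Lib.SRF
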